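import Vale.Agent.P359.Cert8.Wits.W0
import Vale.Agent.P359.Cert8.Wits.W1
import Vale.Agent.P359.Cert8.Wits.W2
import Vale.Agent.P359.Cert8.Wits.W3
import Vale.Agent.P359.Cert8.Wits.W4
import Vale.Agent.P359.Cert8.Wits.W5
import Vale.Agent.P359.Cert8.Wits.W6

/-!
# P359: the slack in every weight up to the cutoff
-/

namespace P359.Cert8

open Finset P359.Asm

/-- The witness in the weight T. -/
def wits : ℕ → Wit
  | 1 => w1
  | 2 => w2
  | 3 => w3
  | 4 => w4
  | 5 => w5
  | 6 => w6
  | 7 => w7
  | 8 => w8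
  | 9 => w9
  | 10 => w10
  | 11 => w11
  | 12 => w12
  | 13 => w13
  | 14 => w14
  | 15 => w15
  | 16 => w16
  | 17 => w17
  | 18 => w18
  | 19 => w19
  | 20 => w20
  | 21 => w21
  | 22 => w22
  | 23 => w23
  | 24 => w24
  | 25 => w25
  | 26 => w26
  | 27 => w27
  | 28 => w28
  | 29 => w29
  | 30 => w30
  | 31 => w31
  | 32 => w32
  | 33 => w33
  | 34 => w34
  | 35 => w35
  | 36 => w36
  | 37 => w37
  | 38 => w38
  | 39 => w39
  | 40 => w40
  | 41 => w41
  | 42 => w42
  | 43 => w43
  | 44 => w44
  | 45 => w45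
  | 46 => w46
  | 47 => w47
  | 48 => w48
  | 49 => w49
  | 50 => w50
  | 51 => w51
  | 52 => w52
  | 53 => w53
  | 54 => w54
  | 55 => w55
  | _ => w1

/-- Bounds for the costs of the slacks. -/
def costs : List ℚ := [mkRat (1) 1000000000, mkRat (1) 1000000000, mkRat (1) 1000000000, mkRat (1) 1000000000, mkRat (7781) 1000000000, mkRat (3) 1000000000, mkRat (1459) 125000000, mkRat (6809) 500000000, mkRat (3891) 250000000, mkRat (1751) 100000000, mkRat (19457) 1000000000, mkRat (5351) 250000000, mkRat (21441) 1000000000, mkRat (21419) 1000000000, mkRat (21449) 1000000000, mkRat (1339) 62500000, mkRat (429) 20000000, mkRat (21613) 1000000000, mkRat (9) 400000, mkRat (13081) 500000000, mkRat (49363) 1000000000, mkRat (883829) 1000000000, mkRat (41369) 500000000, mkRat (504177) 1000000000, mkRat (225381) 250000000, mkRat (148341) 500000000, mkRat (293) 312500, mkRat (132737) 200000000, mkRat (39413) 200000000, mkRat (40413) 100000000, mkRat (344497) 1000000000, mkRat (83829) 250000000, mkRat (155059)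 1000000000, mkRat (100221) 500000000, mkRat (231199) 1000000000, mkRat (229527) 1000000000, mkRat (7421) 31250000, mkRat (257127) 1000000000, mkRat (189187) 1000000000, mkRat (274621) 1000000000, mkRat (39183) 250000000, mkRat (102519) 500000000, mkRat (141591) 1000000000, mkRat (60059) 500000000, mkRat (61121) 500000000, mkRat (80707) 1000000000, mkRat (101409) 1000000000, mkRat (67843) 1000000000, mkRat (41159) 500000000, mkRat (7933) 125000000, mkRat (7171) 100000000, mkRat (31817) 500000000, mkRat (68433) 1000000000, mkRat (32807) 500000000, mkRat (6881) 100000000]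

theorem wits_ok : ∀ T, 1 ≤ T → T ≤ cert.TM →
    ((wits T).chkIdx T && (wits T).chkTab T && (wits T).chkDom &&
      (wits T).chkCost T (costs.getD (T - 1) 0)) = true := by
  intro T h1 h2
  have h2 : T ≤ 55 := h2
  interval_cases T
  · exact w1_ok
  · exact w2_ok
  · exact w3_ok
  · exact w4_ok
  · exact w5_ok
  · exact w6_ok
  · exact w7_ok
  · exact w8_ok
  · exact w9_ok
  · exact w10_ok
  · exact w11_ok
  · exact w12_ok
  · exact w13_ok
  · exact w14_ok
  · exact w15_ok
  · exact w16_ok
  · exact w17_ok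
  · exact w18_ok
  · exact w19_ok
  · exact w20_ok
  · exact w21_ok
  · exact w22_ok
  · exact w23_ok
  · exact w24_ok
  · exact w25_ok
  · exact w26_ok
  · exact w27_ok
  · exact w28_ok
  · exact w29_ok
  · exact w30_ok
  · exact w31_ok
  · exact w32_ok
  · exact w33_ok
  · exact w34_ok
  · exact w35_ok
  · exact w36_ok
  · exact w37_ok
  · exact w38_ok
  · exact w39_ok
  · exact w40_ok
  · exact w41_ok
  · exact w42_ok
  · exact w43_ok
  · exact w44_ok
  · exact w45_ok
  · exact w46_ok
  · exact w47_ok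
  · exact w48_ok
  · exact w49_ok
  · exact w50_ok
  · exact w51_ok
  · exact w52_ok
  · exact w53_ok
  · exact w54_ok
  · exact w55_ok

theorem slack_ok (T : ℕ) (h1 : 1 ≤ T) (h2 : T ≤ cert.TM) : cert.IsSlack T (wits T).slack := by
  have h := wits_ok T h1 h2
  simp only [Bool.and_eq_true] at h
  exact isSlack_of_wit _ h.1.1.1 h.1.1.2 h.1.2

theorem slack_cost : ∑ T ∈ Finset.Icc 1 cert.TM,
    ∑ L ∈ (range (T + 1)).filter (fun L => ¬ Bad L),
      (wits T).slack L * (2 * ((L : ℚ) + 1) * ((T - L : ℕ) + 1)) ≤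
    ∑ T ∈ Finset.Icc 1 cert.TM, costs.getD (T - 1) 0 := by
  refine sum_le_sum fun T hT => ?_
  rw [Finset.mem_Icc] at hT
  have h := wits_ok T hT.1 hT.2
  simp only [Bool.and_eq_true] at h
  exact cost_of_chk _ h.2

end P359.Cert8
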