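import Vale.Agent.P359.Cert8.Eval
import Vale.Agent.P359.Cert8.CTab

/-!
# P359: the finite check in one weight
-/

namespace P359.Cert8

/-- The channels of the squares. -/
def chans : List ℕ := [2, 4, 5, 6, 7, 8, 9, 10, 11, 12]

/-- A witness in one weight. -/
structure Wit where
  al : List (Option ℕ)
  m : ℕ
  s : ℚ
  ww : List ℚ
  U : List (List ℚ)
  R : List (List ℚ)
  G : List (List ℚ)
  W : List (List ℚ)
  N : List (List ℚ)
  d : List ℚ

/-- An entry of a matrix given by rows. -/
def ent (l : List (List ℚ)) (i k : ℕ) : ℚ := (l.getD i []).getD k 0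

/-- `gauge2` in the weight `T`. -/
def gg (T a : ℕ) : ℚ :=
  ((((T - a).factorial * 4 ^ (T - a) * 2 ^ a : ℕ)) : ℚ)
    / (((a.factorial * 3 ^ (T - a) * 3 ^ a : ℕ)) : ℚ)

/-- `piq`. -/
def pq (T L : ℕ) : ℚ :=
  (if T % 2 = 0 then 1 else -1) * (((T - 1).factorial * 2 ^ L : ℕ) : ℚ) / ((2 ^ (T - 1) : ℕ) : ℚ)
    * ((2 * ((T - L : ℕ) : ℚ) - (L : ℚ)) / ((2 * (T - L).factorial : ℕ) : ℚ))

/-- The exchange entry. -/
def exq (T a b : ℕ) : ℚ :=
  pre (T - b) * ((if a % 2 = 0 then 1 else -1) / ((2 ^ a : ℕ) : ℚ))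
    * (hor ((List.range (a + 1)).map (cf a b)) (T - b) : ℚ)

/-- The Gram matrix, evaluated. -/
def gramc (T : ℕ) : Option ℕ → Option ℕ → ℚ
  | some a, some b => ((if a = b then gg T a else 0) - gg T a * gg T b * exq T a b) / 2
  | some a, none => gg T a * pq T a
  | none, some b => gg T b * pq T b
  | none, none => ((2 * (T - 1).factorial : ℕ) : ℚ)

/-- The squares, evaluated. -/
def ztermc (T : ℕ) : Option ℕ → Option ℕ → ℚ
  | some a, some b =>
    pre (T - b) * (hor ((ctab.getD (chans.idxOf a) []).getD (chans.idxOf b) []) (T - b) : ℚ)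
      / ((2 ^ 180 * 3 ^ 14 : ℕ) : ℚ)
  | _, _ => 0

/-- The diagonal, evaluated. -/
def dtermc (T : ℕ) (ww : ℚ) : Option ℕ → ℚ
  | some a => ww / gg T a
  | none => 1 / ((4 * (T - 1).factorial : ℕ) : ℚ)

/-- A list sum with index. -/
def lsum (n : ℕ) (f : ℕ → ℚ) : ℚ := ((List.range n).map f).sum

/-- The check of the tables `G`, `W`, `N`. -/
def Wit.chkTab (w : Wit) (T : ℕ) : Bool :=
  (List.range w.al.length).all (fun i => (List.range w.al.length).all fun k =>
    decide (ent w.G i k = gramc T (w.al.getD i none) (w.al.getD k none))) &&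
  (List.range w.al.length).all (fun i => (List.range w.m).all fun k =>
    decide (ent w.W i k = lsum w.al.length fun q => ent w.G i q * ent w.U q k)) &&
  (List.range w.m).all (fun i => (List.range w.m).all fun k =>
    decide (ent w.N i k = ztermc T (w.al.getD i none) (w.al.getD k none)
      + (if i = k then dtermc T (w.ww.getD i 0) (w.al.getD i none) else 0)
      + w.s * (ent w.U i k + ent w.U k i
        - lsum w.al.length fun p => ent w.U p i * ent w.W p k)))

/-- The remainder after the squares. -/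
def Wit.rest (w : Wit) (i k : ℕ) : ℚ :=
  ent w.N i k - lsum w.m fun p => ent w.R p i * ent w.R p k

/-- Weighted diagonal dominance of the remainder. -/
def Wit.chkDom (w : Wit) : Bool :=
  (List.range w.m).all fun i =>
    decide ((lsum w.m fun k =>
        if k = i then 0 else (|w.rest i k| + |w.rest k i|) / 2 * w.d.getD k 1)
      < w.rest i i * w.d.getD i 1)

end P359.Cert8
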