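import Vale.Agent.P359.Cert8.All
import Vale.Agent.P359.Tail8.Values
import Vale.Agent.P359.Asm.Main
import Vale.Agent.P359.Final
import Vale.Agent.P359.Pairs.SpinComp

/-!
# P359: the certificate closes
-/

noncomputable section

namespace P359.Cert8

open Finset P359.Asm Vale.Agent.P359.Pairs Vale.Agent.P359.Laughlin Matrix

theorem budget_ok : cert.kappa + 7 / 1000 + 3 / 1000
    + ∑ T ∈ Finset.Icc 1 cert.TM, costs.getD (T - 1) 0 ≤ 9 / 10 := by
  decide +kernel

theorem car_bound : ∃ d : ℝ, 0 < d ∧ ∃ Q0 : ℕ, ∀ Q, Q0 ≤ Q →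
    ∀ (V : Type) [NormedAddCommGroup V] [InnerProductSpace ℂ V] (A : CAR Q V) (x : V),
      d * A.hEn x ≤ ‖A.ham x‖ ^ 2 := by
  refine gap_of_data cert legal ys_nonneg (fun T => (wits T).slack) (7 / 1000)
    (((3 / 1000 : ℚ)) : ℝ) slack_ok hpair htail ?_
  have h : cert.kappa + 7 / 1000 + 3 / 1000 + (∑ T ∈ Finset.Icc 1 cert.TM,
      ∑ L ∈ (range (T + 1)).filter (fun L => ¬ Bad L),
        (wits T).slack L * (2 * ((L : ℚ) + 1) * ((T - L : ℕ) + 1))) < 1 := by
    have h1 := budget_ok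
    have h2 := slack_cost
    linarith
  exact_mod_cast h

/-- The component of spin `Q - 1` as generated by all its highest vectors. -/
theorem spinComp_intrinsic (Q : ℕ) :
    spinComp Q = Submodule.span ℂ {w | ∃ (k : ℕ) (u : Fin (Q + 1) × Fin (Q + 1) → ℂ),
      HighestWeight Q u ∧ w = lowerTwo Q ^ k *ᵥ u} := by
  rcases Nat.eq_zero_or_pos Q with rfl | hQ
  · have z : ∀ u : Fin 1 × Fin 1 → ℂ, HighestWeight 0 u → u = 0 := fun u hu => funext fun x =>
      hu.1 x (by simp [wsum])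
    have z' : spinVec 0 1 = 0 := funext fun x => if_neg (by simp [wsum])
    rw [spinComp, z']
    refine le_antisymm (Submodule.span_le.2 ?_) (Submodule.span_le.2 ?_)
    · rintro _ ⟨k, rfl⟩
      simp
    · rintro _ ⟨k, u, hu, rfl⟩
      simp [z u hu]
  · refine le_antisymm (Submodule.span_mono ?_) (Submodule.span_le.2 ?_)
    · rintro _ ⟨k, rfl⟩
      exact ⟨k, _, spinVec_highest hQ, rfl⟩
    · rintro _ ⟨k, u, hu, rfl⟩
      obtain ⟨c, rfl⟩ := highest_unique hQ hu
      show lowerTwo Q ^ k *ᵥ (c • spinVec Q 1) ∈ _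
      rw [Matrix.mulVec_smul]
      exact Submodule.smul_mem _ _ (Submodule.subset_span ⟨k, rfl⟩)

end P359.Cert8
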