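import Vale.Agent.P359.Cert8.Gen

/-!
# P359: fast evaluation of the limit coefficients

`R3` is a polynomial in `l'` in the basis `8^t * l'.descFactorial t`, times an explicit factor.
-/

namespace P359.Cert8

/-- The value at `m` of a polynomial in the basis `8^t * m.descFactorial t`. -/
def hor : List ℤ → ℕ → ℤ
  | [], _ => 0
  | c :: cs, m => c + Int.ofNat (Nat.mul 8 m) * hor cs (Nat.sub m 1)

/-- The coefficient `t` of the polynomial of `R3 n _ n' _`. -/
def cf (n n' t : ℕ) : ℤ :=
  if t ≤ n then
    (-1 : ℤ) ^ (n - t) * ((n'.descFactorial (n - t) / (n - t).factorial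
      * n.descFactorial (n - t) : ℕ) : ℤ)
  else 0

/-- The factor in front of the polynomial. -/
def pre (m : ℕ) : ℚ :=
  (if m % 2 = 0 then 1 else -1) / ((4 ^ m * m.factorial : ℕ) : ℚ)

end P359.Cert8
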