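import Vale.Agent.P359.Cert8.Check
import Vale.Agent.P359.Cert8.Data
import Vale.Agent.P359.Cert8.ZTab

/-!
# P359: the fast evaluation agrees with the limit formulas
-/

namespace P359.Cert8

open Finset P359.Asm

theorem hor_eq : ∀ (cs : List ℤ) (m : ℕ),
    hor cs m = ∑ t ∈ range cs.length, cs.getD t 0 * ((8 ^ t * m.descFactorial t : ℕ) : ℤ)
  | [], m => by simp [hor]
  | c :: cs, m => by
    rw [hor, hor_eq cs, List.length_cons, sum_range_succ', Finset.mul_sum]
    simp only [List.getD_cons_succ, List.getD_cons_zero, pow_zero, Nat.descFactorial_zero,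
      mul_one, Nat.cast_one]
    rw [add_comm]
    congr 1
    refine sum_congr rfl fun t _ => ?_
    rcases m with _ | k
    · simp
    · rw [Nat.succ_descFactorial_succ, Int.ofNat_eq_natCast, Nat.mul_eq, Nat.sub_eq,
        Nat.add_sub_cancel]
      push_cast
      ring

theorem pre_eq (m : ℕ) : pre m = (-1) ^ m / ((4 ^ m * m.factorial : ℕ) : ℚ) := by
  rw [pre, neg_one_pow_eq_ite]
  simp only [Nat.even_iff]

theorem R3_eq {n l n' l' : ℕ} (h : n + l = n' + l') :
    R3 n l n' l' = pre l' * ((-1) ^ n / ((2 ^ n : ℕ) : ℚ)) *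
      ∑ t ∈ range (n + 1), (cf n n' t : ℚ) * ((8 ^ t * l'.descFactorial t : ℕ) : ℚ) := by
  rw [R3, ← sum_range_reflect, Nat.add_sub_cancel, pre_eq, mul_sum, mul_sum]
  refine sum_congr rfl fun t ht => ?_
  have ht' : t ≤ n := Nat.lt_succ_iff.1 (mem_range.1 ht)
  by_cases hl : t ≤ l'
  · rw [if_pos (by omega), show l + (n - t) - n' = l' - t by omega, cf, if_pos ht',
      ← Nat.choose_eq_descFactorial_div_factorial,
      ← Nat.factorial_mul_descFactorial hl]
    have h8 : (8 : ℚ) ^ n = 8 ^ (n - t) * 8 ^ t := by rw [← pow_add, Nat.sub_add_cancel ht']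
    have h4 : (2 : ℚ) ^ n * 4 ^ n = 8 ^ n := by rw [← mul_pow]; norm_num
    have h0 : (l'.descFactorial t : ℚ) ≠ 0 := by exact_mod_cast (Nat.descFactorial_pos.2 hl).ne'
    push_cast
    rw [pow_add]
    field_simp
    linear_combination (n'.choose (n - t) : ℚ) * (h4 + h8)
  · rw [if_neg (by omega), Nat.descFactorial_eq_zero_iff_lt.2 (by omega)]
    simp

theorem gg_eq (T a : ℕ) : gg T a = gauge2 a (T - a) := rfl

theorem pq_eq (T L : ℕ) : pq T L = piq T L := by
  rw [pq, piq, neg_one_pow_eq_ite]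
  simp only [Nat.even_iff]

theorem exq_eq {T a b : ℕ} (ha : a ≤ T) (hb : b ≤ T) : exq T a b = R3 a (T - a) b (T - b) := by
  rw [R3_eq (show a + (T - a) = b + (T - b) by omega), exq, hor_eq, neg_one_pow_eq_ite]
  simp only [Nat.even_iff, List.length_map, List.length_range, Int.cast_sum, Int.cast_mul,
    Int.cast_natCast]
  congr 1
  refine sum_congr rfl fun t ht => ?_
  rw [List.getD_eq_getElem _ _ (by simpa using mem_range.1 ht)]
  simp

theorem gramc_eq {T : ℕ} {p q : Option ℕ} (hp : ∀ a, p = some a → a ≤ T)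
    (hq : ∀ b, q = some b → b ≤ T) : gramc T p q = gram T p q := by
  match p, q with
  | some a, some b => simp only [gramc, gram, exq_eq (hp a rfl) (hq b rfl), gg_eq]
  | some a, none => simp only [gramc, gram, gg_eq, pq_eq]
  | none, some b => simp only [gramc, gram, gg_eq, pq_eq]
  | none, none => rfl

/-- The coefficient `t` of a group for the channels `a`, `b`, from the table. -/
def gcoef (g : Grp) (z : List (List ℚ)) (a b t : ℕ) : ℚ :=
  if a ∈ g.2.1 ∧ b ∈ g.2.1 then
    ent z (g.2.1.idxOf a) (g.2.1.idxOf b) * (cf (a + g.1.2 - g.1.1) (b + g.1.2 - g.1.1) t : ℚ)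
  else 0

/-- The table entry of the channels `a`, `b` is right. -/
def zOk (g : Grp) (z : List (List ℚ)) (a b : ℕ) : Bool :=
  decide (ent z (g.2.1.idxOf a) (g.2.1.idxOf b) =
    (g.2.2.map fun row => row.2.getD (g.2.1.idxOf a) 0 * row.2.getD (g.2.1.idxOf b) 0).sum
      * ((((3 ^ g.1.1 * 2 ^ g.1.2 : ℕ)) : ℚ) / (((2 ^ g.1.1 * 3 ^ g.1.2 : ℕ)) : ℚ))
      * ((if (a + g.1.2 - g.1.1) % 2 = 0 then 1 else -1)
        / (((2 ^ (a + g.1.2 - g.1.1) : ℕ)) : ℚ)))

/-- The shifts stay in range and all table entries are right. -/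
def ztabOk : Bool :=
  (grps.zip ztab).all fun gz => gz.1.2.1.all fun a =>
    decide (gz.1.1.1 ≤ a + gz.1.1.2 ∧ a + gz.1.1.2 - gz.1.1.1 < 27) &&
      gz.1.2.1.all fun b => zOk gz.1 gz.2 a b

theorem ztab_ok : ztabOk = true := by decide +kernel

theorem ztab_length : grps.length = ztab.length := by decide +kernel

end P359.Cert8
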