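import Vale.Agent.P359.Asm.Pos
import Vale.Agent.P359.Core.Quart
import Vale.Agent.P359.Core.Channels
import Vale.Agent.P359.Core.Exch
import Vale.Agent.P359.Lim.Tendsto

/-!
# P359: a slack from few generators

In the weight `T` the vectors `x L = Phi2 L (T-L) U` satisfy `x = - exch x`, so their coefficients
against the generators `sqrt (gauge2 a (T-a)) * (1 - exch) e_a / 2` and `sqrt (2 (T-1)!) * piC`
bound `∑ ‖x L‖²` from below through the Gram matrix of the generators.
-/

noncomputable section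

namespace P359.Cert8

open Finset Filter Topology P359.Asm

/-- The limit Gram matrix of the generators (`some a`: a channel, `none`: the pair vector). -/
def gram (T : ℕ) : Option ℕ → Option ℕ → ℚ
  | some a, some b => ((if a = b then gauge2 a (T - a) else 0)
      - gauge2 a (T - a) * gauge2 b (T - b) * R3 a (T - a) b (T - b)) / 2
  | some a, none => gauge2 a (T - a) * piq T a
  | none, some b => gauge2 b (T - b) * piq T b
  | none, none => ((2 * (T - 1).factorial : ℕ) : ℚ)

/-- The limit of the squares of charge `3|1`, in the coordinates of the generators. -/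
def zterm (c : Data) (T : ℕ) : Option ℕ → Option ℕ → ℚ
  | some a, some b => (c.sqs.map fun s => if a ∈ s.Ls ∧ b ∈ s.Ls then
      s.r a * s.r b * (3 / 2 : ℚ) ^ ((a : ℤ) - s.n a) * R3 (s.n a) (T - a) (s.n b) (T - b)
    else 0).sum
  | _, _ => 0

/-- The diagonal part of the reduced form. -/
def dterm (T : ℕ) (ww : ℚ) : Option ℕ → ℚ
  | some a => ww / gauge2 a (T - a)
  | none => 1 / ((4 * (T - 1).factorial : ℕ) : ℚ)

/-- The reduced form. -/
def nmat (c : Data) (T : ℕ) (gen : ℕ → Option ℕ) (M : ℕ) (s : ℚ) (ww : ℕ → ℚ)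
    (U : ℕ → ℕ → ℚ) (i k : ℕ) : ℚ :=
  zterm c T (gen i) (gen k) + (if i = k then dterm T (ww i) (gen i) else 0)
    + s * (U i k + U k i
      - ∑ p ∈ range M, U p i * ∑ q ∈ range M, gram T (gen p) (gen q) * U q k)

/-- The slack of each channel. -/
def slackW (gen : ℕ → Option ℕ) (m : ℕ) (s : ℚ) (ww : ℕ → ℚ) (L : ℕ) : ℚ :=
  s + ∑ i ∈ range m, if gen i = some L then ww i else 0

theorem tendsto_nhds_of_eq {f : ℕ → ℝ} {a b : ℝ} (h : Tendsto f atTop (𝓝 a)) (e : a = b) :
    Tendsto f atTop (𝓝 b) := e ▸ h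

/-- A weighted diagonally dominant form is nonnegative on inner products. -/
theorem dom_nonneg {V : Type*} [NormedAddCommGroup V] [InnerProductSpace ℂ V] {m : ℕ}
    (S : ℕ → ℕ → ℝ) (d : ℕ → ℝ) (hd : ∀ i, 0 < d i) (c : ℕ → V)
    (h : ∀ i < m, ∑ k ∈ (range m).erase i, (|S i k| + |S k i|) / 2 * d k ≤ S i i * d i) :
    0 ≤ ∑ i ∈ range m, ∑ k ∈ range m, S i k * (inner ℂ (c i) (c k)).re := by
  let K : ℕ → ℕ → ℝ := fun i k => (|S i k| + |S k i|) / 2 * ‖c i‖ ^ 2 * d k / d i
  let O : ℕ → ℕ → ℝ := fun i k => if i = k then 0 else 1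
  have h1 : ∀ i ∈ range m, ∀ k ∈ range m,
      (if i = k then S i i * ‖c i‖ ^ 2 else 0) - O i k * (K i k + K k i) / 2 ≤
        (S i k * (inner ℂ (c i) (c k)).re + S k i * (inner ℂ (c k) (c i)).re) / 2 := by
    intro i _ k _
    have hs : (inner ℂ (c k) (c i)).re = (inner ℂ (c i) (c k)).re := inner_re_symm (𝕜 := ℂ) _ _
    by_cases hik : i = k
    · subst hik
      have e : (inner ℂ (c i) (c i)).re = ‖c i‖ ^ 2 := by
        simp [inner_self_eq_norm_sq_to_K, ← Complex.ofReal_pow]
      simp only [O, if_true, zero_mul, zero_div, sub_zero, e, add_self_div_two, le_refl]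
    · rw [if_neg hik, hs, ← add_mul]
      have hr : |(inner ℂ (c i) (c k)).re| ≤ ‖c i‖ * ‖c k‖ :=
        (Complex.abs_re_le_norm _).trans (norm_inner_le_norm _ _)
      have hq : ‖c i‖ * ‖c k‖ ≤ (‖c i‖ ^ 2 * d k / d i + ‖c k‖ ^ 2 * d i / d k) / 2 := by
        have hi := hd i
        have hk := hd k
        rw [div_add_div _ _ hi.ne' hk.ne', div_div, le_div_iff₀ (by positivity)]
        nlinarith [sq_nonneg (‖c i‖ * d k - ‖c k‖ * d i)]
      have h2 := neg_abs_le ((S i k + S k i) * (inner ℂ (c i) (c k)).re)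
      have h3 : |(S i k + S k i) * (inner ℂ (c i) (c k)).re| ≤
          (|S i k| + |S k i|) * ((‖c i‖ ^ 2 * d k / d i + ‖c k‖ ^ 2 * d i / d k) / 2) := by
        rw [abs_mul]
        exact mul_le_mul (abs_add_le _ _) (hr.trans hq) (abs_nonneg _) (by positivity)
      have e : O i k * (K i k + K k i) / 2 = (|S i k| + |S k i|) *
          ((‖c i‖ ^ 2 * d k / d i + ‖c k‖ ^ 2 * d i / d k) / 2) / 2 := by
        simp only [O, K, if_neg hik]
        ring
      rw [e]
      linarith
  have h2 := sum_le_sum fun i hi => sum_le_sum fun k hk => h1 i hi k hk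
  have e1 : ∑ i ∈ range m, ∑ k ∈ range m,
      (S i k * (inner ℂ (c i) (c k)).re + S k i * (inner ℂ (c k) (c i)).re) / 2 =
      ∑ i ∈ range m, ∑ k ∈ range m, S i k * (inner ℂ (c i) (c k)).re := by
    simp only [add_div, sum_add_distrib]
    rw [sum_comm (f := fun i k => S k i * (inner ℂ (c k) (c i)).re / 2), ← two_mul, mul_sum]
    refine sum_congr rfl fun i _ => ?_
    rw [mul_sum]
    exact sum_congr rfl fun k _ => by ring
  have e2 : ∑ i ∈ range m, ∑ k ∈ range m, O i k * (K i k + K k i) / 2 =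
      ∑ i ∈ range m, ∑ k ∈ (range m).erase i, K i k := by
    simp only [mul_add, add_div, sum_add_distrib]
    rw [sum_comm (f := fun i k => O i k * K k i / 2), ← sum_add_distrib]
    refine sum_congr rfl fun i hi => ?_
    rw [← sum_add_distrib, ← sum_erase_add _ _ hi]
    simp only [O, if_true, zero_mul, zero_div, add_zero]
    refine sum_congr rfl fun k hk => ?_
    rw [if_neg (ne_of_mem_erase hk), if_neg (ne_of_mem_erase hk).symm]
    ring
  rw [e1] at h2
  simp only [sum_sub_distrib] at h2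
  rw [e2] at h2
  refine le_trans ?_ h2
  rw [← sum_sub_distrib]
  refine sum_nonneg fun i hi => ?_
  rw [sum_ite_eq, if_pos hi, sub_nonneg]
  have hb := mul_le_mul_of_nonneg_left (h i (mem_range.1 hi))
    (div_nonneg (sq_nonneg ‖c i‖) (hd i).le)
  rw [mul_sum] at hb
  refine le_of_eq_of_le (sum_congr rfl fun k _ => ?_) (hb.trans_eq ?_)
  · simp only [K]; ring
  · field_simp [(hd i).ne']

/-- The generator of an index, at finite `Q`. -/
def gam (Q T : ℕ) : Option ℕ → ℕ → ℝ
  | some a, L => Real.sqrt (gauge2 a (T - a) : ℝ) * ((if L = a then 1 else 0) - exch Q T L a) / 2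
  | none, L => Real.sqrt ((2 * (T - 1).factorial : ℕ) : ℝ) * piC Q T L

/-- The squares at finite `Q`, in the coordinates of the generators. -/
def zQ (c : Data) (Q T : ℕ) : Option ℕ → Option ℕ → ℝ
  | some a, some b => (c.quad Q T a b - 1 / 2 * (piC Q T a * piC Q T b))
      / (Real.sqrt (gauge2 a (T - a) : ℝ) * Real.sqrt (gauge2 b (T - b) : ℝ))
  | _, _ => 0

/-- The Gram matrix of the generators at finite `Q`. -/
def gramQ (Q T : ℕ) (o o' : Option ℕ) : ℝ :=
  ∑ L ∈ range (T + 1), gam Q T o L * gam Q T o' L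

/-- The reduced form at finite `Q`. -/
def nQ (c : Data) (Q T : ℕ) (gen : ℕ → Option ℕ) (M : ℕ) (s : ℚ) (ww : ℕ → ℚ)
    (U : ℕ → ℕ → ℚ) (i k : ℕ) : ℝ :=
  zQ c Q T (gen i) (gen k) + ((if i = k then dterm T (ww i) (gen i) else 0 : ℚ) : ℝ)
    + (s : ℝ) * ((U i k : ℝ) + (U k i : ℝ)
      - ∑ p ∈ range M, (U p i : ℝ) * ∑ q ∈ range M, gramQ Q T (gen p) (gen q) * (U q k : ℝ))

theorem gauge2_pos (a l : ℕ) : (0 : ℝ) < (gauge2 a l : ℝ) := by
  unfold gauge2
  positivity

theorem zQ_tendsto (c : Data) (hlegal : ∀ q ∈ c.sqs, q.Legal) {T : ℕ} (hT : 1 ≤ T)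
    (o o' : Option ℕ) (ho : ∀ a, o = some a → a ≤ T) (ho' : ∀ a, o' = some a → a ≤ T) :
    Tendsto (fun Q => zQ c Q T o o') atTop (𝓝 (zterm c T o o' : ℝ)) := by
  rcases o with _ | a <;> rcases o' with _ | b
  iterate 3 simp [zQ, zterm]
  have ha := ho a rfl
  have hb := ho' b rfl
  refine (show _ = (zterm c T (some a) (some b) : ℝ) from ?_) ▸
    (((quad_tendsto c hlegal hT ha hb).sub
      (((piC_tendsto hT ha).mul (piC_tendsto hT hb)).const_mul (1 / 2 : ℝ))).div_const
      (Real.sqrt (gauge2 a (T - a) : ℝ) * Real.sqrt (gauge2 b (T - b) : ℝ)))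
  have ga := (Real.sqrt_pos.2 (gauge2_pos a (T - a))).ne'
  have gb := (Real.sqrt_pos.2 (gauge2_pos b (T - b))).ne'
  rw [Data.quadq, zterm, Rat.cast_add, Real.sqrt_div' _ (by positivity),
    Real.sqrt_div' _ (by positivity)]
  have hp : (0 : ℝ) < ((2 * (T - 1).factorial : ℕ) : ℝ) := by
    exact_mod_cast Nat.mul_pos two_pos (Nat.factorial_pos _)
  have hr0 := (Real.sqrt_pos.2 hp).ne'
  have hr := Real.mul_self_sqrt hp.le
  have hf : ((T - 1).factorial : ℝ) ≠ 0 := by exact_mod_cast (Nat.factorial_pos _).ne'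
  generalize hZ : ((c.sqs.map fun s => if a ∈ s.Ls ∧ b ∈ s.Ls then
      s.r a * s.r b * (3 / 2 : ℚ) ^ ((a : ℤ) - s.n a) * R3 (s.n a) (T - a) (s.n b) (T - b)
    else 0).sum : ℚ) = Z
  set r := Real.sqrt ((2 * (T - 1).factorial : ℕ) : ℝ)
  push_cast at hr ⊢
  field_simp
  linear_combination (2 * (piq T a : ℝ) * (piq T b : ℝ)) * hr

theorem gramQ_tendsto {T : ℕ} (hT : 1 ≤ T) (o o' : Option ℕ) (ho : ∀ a, o = some a → a ≤ T)
    (ho' : ∀ a, o' = some a → a ≤ T) :
    Tendsto (fun Q => gramQ Q T o o') atTop (𝓝 (gram T o o' : ℝ)) := by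
  have hev : ∀ᶠ Q in atTop, 2 ≤ Q ∧ T ≤ Q :=
    (eventually_ge_atTop 2).and (eventually_ge_atTop T)
  have hd : ∀ {a : ℕ}, a ≤ T → ∀ f : ℕ → ℝ,
      ∑ L ∈ range (T + 1), (if L = a then 1 else 0) * f L = f a := by
    intro a ha f
    simp [mem_range, Nat.lt_succ_of_le ha]
  have hf : ((T - 1).factorial : ℝ) ≠ 0 := by exact_mod_cast (Nat.factorial_pos _).ne'
  have hp : (0 : ℝ) < ((2 * (T - 1).factorial : ℕ) : ℝ) := by
    exact_mod_cast Nat.mul_pos two_pos (Nat.factorial_pos _)
  -- one channel against the pair vector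
  have mixed : ∀ {a : ℕ}, a ≤ T →
      Tendsto (fun Q => gramQ Q T (some a) none) atTop (𝓝 (gram T (some a) none : ℝ)) := by
    intro a ha
    have hlim := (piC_tendsto hT ha).const_mul
      (Real.sqrt (gauge2 a (T - a) : ℝ) * Real.sqrt ((2 * (T - 1).factorial : ℕ) : ℝ))
    refine Tendsto.congr' ?_ ((tendsto_nhds_of_eq hlim ?_))
    · filter_upwards [hev] with Q hQ
      have he := exch_piC hQ.1 hT hQ.2 ha
      calc _ = Real.sqrt (gauge2 a (T - a) : ℝ) * Real.sqrt ((2 * (T - 1).factorial : ℕ) : ℝ) / 2 *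
          ((∑ L ∈ range (T + 1), (if L = a then 1 else 0) * piC Q T L) -
            ∑ L ∈ range (T + 1), exch Q T a L * piC Q T L) := by
            rw [hd ha, he]; ring
        _ = _ := by
            rw [← sum_sub_distrib, mul_sum, gramQ]
            refine sum_congr rfl fun L _ => ?_
            rw [gam, gam, exch_symm Q T a L]
            ring
    · rw [Real.sqrt_div' _ (by positivity), gram]
      have hr0 := (Real.sqrt_pos.2 hp).ne'
      have hg := Real.mul_self_sqrt (gauge2_pos a (T - a)).le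
      push_cast at hr0 ⊢
      field_simp
      linear_combination (piq T a : ℝ) * hg
  rcases o with _ | a <;> rcases o' with _ | b
  · refine tendsto_const_nhds.congr' ?_
    filter_upwards [hev] with Q hQ
    have := piC_norm hQ.1 hT hQ.2
    have hr := Real.mul_self_sqrt hp.le
    simp only [gramQ, gam, gram, Rat.cast_natCast]
    rw [sum_congr rfl fun L _ => (show _ = Real.sqrt ((2 * (T - 1).factorial : ℕ) : ℝ)
      * Real.sqrt ((2 * (T - 1).factorial : ℕ) : ℝ) * piC Q T L ^ 2 by ring), ← mul_sum, this,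
      hr, mul_one]
  · simpa [gramQ, gram, mul_comm] using mixed (ho' b rfl)
  · exact mixed (ho a rfl)
  · have ha := ho a rfl
    have hb := ho' b rfl
    refine Tendsto.congr' ?_ (tendsto_nhds_of_eq
      (((tendsto_const_nhds (x := if a = b then (1 : ℝ) else 0)).sub
        (exch_tendsto ha hb)).const_mul
        (Real.sqrt (gauge2 a (T - a) : ℝ) * Real.sqrt (gauge2 b (T - b) : ℝ) / 2)) ?_)
    · filter_upwards [hev] with Q hQ
      calc _ = Real.sqrt (gauge2 a (T - a) : ℝ) * Real.sqrt (gauge2 b (T - b) : ℝ) / 4 *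
          (((∑ L ∈ range (T + 1), (if L = a then 1 else 0) * (if L = b then 1 else 0)) -
            ∑ L ∈ range (T + 1), (if L = a then 1 else 0) * exch Q T L b) -
            ((∑ L ∈ range (T + 1), (if L = b then 1 else 0) * exch Q T L a) -
            ∑ L ∈ range (T + 1), exch Q T a L * exch Q T L b)) := by
            rw [hd ha, hd ha, hd hb, exch_sq hQ.1 hQ.2 ha hb, exch_symm Q T b a]; ring
        _ = _ := by
            rw [← sum_sub_distrib, ← sum_sub_distrib, ← sum_sub_distrib, mul_sum, gramQ]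
            refine sum_congr rfl fun L _ => ?_
            rw [gam, gam, exch_symm Q T a L]
            ring
    · rw [gram]
      have hga := Real.mul_self_sqrt (gauge2_pos a (T - a)).le
      have hgb := Real.mul_self_sqrt (gauge2_pos b (T - b)).le
      by_cases hab : a = b
      · subst hab
        simp only [if_true]
        push_cast
        linear_combination (1 / 2 : ℝ) * hga - (R3 a (T - a) a (T - a) : ℝ) / 2
          * (Real.sqrt (gauge2 a (T - a) : ℝ) * Real.sqrt (gauge2 a (T - a) : ℝ)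
            + (gauge2 a (T - a) : ℝ)) * hga
      · simp only [if_neg hab]
        push_cast
        linear_combination (-(R3 a (T - a) b (T - b) : ℝ) / 2
            * (Real.sqrt (gauge2 b (T - b) : ℝ) * Real.sqrt (gauge2 b (T - b) : ℝ))) * hga
          - (R3 a (T - a) b (T - b) : ℝ) / 2 * (gauge2 a (T - a) : ℝ) * hgb

theorem nQ_tendsto (c : Data) (hlegal : ∀ q ∈ c.sqs, q.Legal) {T : ℕ} (hT : 1 ≤ T)
    (gen : ℕ → Option ℕ) {M : ℕ} (hle : ∀ i < M, ∀ a, gen i = some a → a ≤ T) (s : ℚ)
    (ww : ℕ → ℚ) (U : ℕ → ℕ → ℚ) {i k : ℕ} (hi : i < M) (hk : k < M) :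
    Tendsto (fun Q => nQ c Q T gen M s ww U i k) atTop
      (𝓝 (nmat c T gen M s ww U i k : ℝ)) := by
  unfold nQ nmat
  push_cast
  refine ((zQ_tendsto c hlegal hT _ _ (hle i hi) (hle k hk)).add tendsto_const_nhds).add
    ((tendsto_const_nhds.sub ?_).const_mul _)
  refine tendsto_finsetSum _ fun p hp => Tendsto.const_mul _ ?_
  exact tendsto_finsetSum _ fun q hq =>
    (gramQ_tendsto hT _ _ (hle p (mem_range.1 hp)) (hle q (mem_range.1 hq))).mul_const _

/-- Sums over the covered channels are sums over the generators. -/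
theorem sum_cover {T m : ℕ} (gen : ℕ → Option ℕ) (hle : ∀ i < m, ∀ a, gen i = some a → a ≤ T)
    (hinj : ∀ i < m, ∀ k < m, gen i = gen k → i = k) (f : ℕ → ℝ)
    (hf : ∀ a ≤ T, f a ≠ 0 → ∃ i < m, gen i = some a) :
    ∑ a ∈ range (T + 1), f a = ∑ i ∈ range m, (gen i).elim 0 f := by
  have h1 : ∀ i ∈ range m,
      (gen i).elim 0 f = ∑ a ∈ range (T + 1), if gen i = some a then f a else 0 := by
    intro i hi
    rcases hg : gen i with _ | b
    · simp
    · simp [Nat.lt_succ_of_le (hle i (mem_range.1 hi) b hg)]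
  rw [sum_congr rfl h1, sum_comm]
  refine sum_congr rfl fun a ha => ?_
  by_cases h0 : f a = 0
  · simp [h0]
  obtain ⟨i, hi, hgi⟩ := hf a (Nat.le_of_lt_succ (mem_range.1 ha)) h0
  rw [sum_eq_single i (fun k hk hki => if_neg fun hgk =>
    hki (hinj k (mem_range.1 hk) i hi (hgk.trans hgi.symm))) (fun h => absurd (mem_range.2 hi) h),
    if_pos hgi]

/-- The bound at one vector of channels. -/
theorem point_nonneg {V : Type} [NormedAddCommGroup V] [InnerProductSpace ℂ V] (c : Data)
    {Q T : ℕ} (gen : ℕ → Option ℕ) {m M : ℕ} (hmM : m ≤ M)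
    (hle : ∀ i < M, ∀ a, gen i = some a → a ≤ T)
    (hbad : ∀ i, m ≤ i → i < M → ∃ b, gen i = some b ∧ Bad b)
    (hinj : ∀ i < m, ∀ k < m, gen i = gen k → i = k)
    (hpi : ∃ i, i < m ∧ gen i = none)
    (hcov : ∀ q ∈ c.sqs, ∀ a ∈ q.Ls, a ≤ T → ∃ i, i < m ∧ gen i = some a)
    (s : ℚ) (hs : 0 ≤ s) (ww : ℕ → ℚ)
    (U R : ℕ → ℕ → ℚ) (d : ℕ → ℚ) (hd : ∀ i, 0 < d i)
    (hdd : ∀ i < m,
      ∑ k ∈ (range m).erase i,
          (|nQ c Q T gen M s ww U i k - ∑ p ∈ range m, (R p i : ℝ) * R p k|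
            + |nQ c Q T gen M s ww U k i - ∑ p ∈ range m, (R p k : ℝ) * R p i|) / 2 * d k <
        (nQ c Q T gen M s ww U i i - ∑ p ∈ range m, (R p i : ℝ) * R p i) * d i)
    (x : ℕ → V) (hx : ∀ a ≤ T, x a = - ∑ L ∈ range (T + 1), (exch Q T a L : ℂ) • x L)
    (hxb : ∀ b, Bad b → x b = 0) :
    - ∑ L ∈ range (T + 1), (slackW gen m s ww L : ℝ) * (inner ℂ (x L) (x L)).re ≤
      ∑ a ∈ range (T + 1), ∑ b ∈ range (T + 1), c.quad Q T a b * (inner ℂ (x a) (x b)).re := by
  set cv : ℕ → V := fun i => ∑ L ∈ range (T + 1), (gam Q T (gen i) L : ℂ) • x L with hcv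
  let I : ℕ → ℕ → ℝ := fun i k => (inner ℂ (cv i) (cv k)).re
  let J : ℕ → ℕ → ℝ := fun a b => (inner ℂ (x a) (x b)).re
  let g : ℕ → ℝ := fun a => Real.sqrt (gauge2 a (T - a) : ℝ)
  have hg : ∀ a, g a ≠ 0 := fun a => (Real.sqrt_pos.2 (gauge2_pos a (T - a))).ne'
  -- the coordinates
  have hc : ∀ i < M, ∀ a, gen i = some a → cv i = (g a : ℂ) • x a := by
    intro i hi a hga
    have ha := hle i hi a hga
    have e : ∑ L ∈ range (T + 1), (exch Q T a L : ℂ) • x L = - x a := (neg_eq_iff_eq_neg.2 (hx a ha)).symm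
    have e0 : ∑ L ∈ range (T + 1), ((if L = a then (1 : ℂ) else 0)) • x L = x a := by
      simp [ite_smul, Nat.lt_succ_of_le ha]
    calc cv i = ((g a / 2 : ℝ) : ℂ) • ((∑ L ∈ range (T + 1), (if L = a then (1 : ℂ) else 0) • x L)
        - ∑ L ∈ range (T + 1), (exch Q T a L : ℂ) • x L) := by
          rw [← sum_sub_distrib, smul_sum, hcv]
          refine sum_congr rfl fun L _ => ?_
          rw [← sub_smul, smul_smul, hga, gam, exch_symm Q T L a]
          congr 1
          split_ifs <;> push_cast [g] <;> ring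
      _ = _ := by
          rw [e0, e, sub_neg_eq_add, ← two_smul ℂ (x a), smul_smul]
          congr 1
          push_cast
          ring
  have hI : ∀ i k, I i k = ∑ a ∈ range (T + 1), ∑ b ∈ range (T + 1),
      gam Q T (gen i) a * gam Q T (gen k) b * J a b := fun i k =>
    CAR.re_inner_sum (range (T + 1)) (range (T + 1)) (gam Q T (gen i)) (gam Q T (gen k)) x x
  have hIs : ∀ i < M, ∀ k < M, ∀ a b, gen i = some a → gen k = some b →
      I i k = g a * g b * J a b := by
    intro i hi k hk a b ha hb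
    simp only [I, J, hc i hi a ha, hc k hk b hb, inner_smul_left, inner_smul_right,
      Complex.conj_ofReal]
    rw [← mul_assoc, ← Complex.ofReal_mul, Complex.re_ofReal_mul]
    ring
  -- the quadratic form
  have hquad : (∑ a ∈ range (T + 1), ∑ b ∈ range (T + 1), c.quad Q T a b * J a b) +
      ∑ L ∈ range (T + 1), ((∑ i ∈ range m, if gen i = some L then ww i else 0 : ℚ) : ℝ) * J L L =
      ∑ i ∈ range m, ∑ k ∈ range m,
        (zQ c Q T (gen i) (gen k) + ((if i = k then dterm T (ww i) (gen i) else 0 : ℚ) : ℝ))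
          * I i k := by
    let z : ℕ → ℕ → ℝ := fun a b => (c.quad Q T a b - 1 / 2 * (piC Q T a * piC Q T b)) * J a b
    have hz0 : ∀ a b, (∀ q ∈ c.sqs, ¬ (a ∈ q.Ls ∧ b ∈ q.Ls)) → z a b = 0 := by
      intro a b h
      have : (c.sqs.map fun q => if a ∈ q.Ls ∧ b ∈ q.Ls then
          q.g a * q.g b * F3 Q a (q.n a) (T - a) (q.n b) (T - b) else 0).sum = 0 :=
        List.sum_eq_zero fun v hv => by
          obtain ⟨q, hq, rfl⟩ := List.mem_map.1 hv
          rw [if_neg (h q hq)]
      simp [z, Data.quad, this]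
    have hz : ∑ a ∈ range (T + 1), ∑ b ∈ range (T + 1), z a b =
        ∑ i ∈ range m, ∑ k ∈ range m, zQ c Q T (gen i) (gen k) * I i k := by
      have hb : ∀ a ≤ T, ∑ b ∈ range (T + 1), z a b = ∑ k ∈ range m, (gen k).elim 0 (z a) :=
        fun a ha => sum_cover gen (fun i hi => hle i (hi.trans_le hmM)) hinj (z a) fun b hb hne => by
          by_contra hno
          exact hne (hz0 a b fun q hq hab => hno (hcov q hq b hab.2 hb))
      rw [sum_congr rfl fun a ha => hb a (Nat.le_of_lt_succ (mem_range.1 ha)),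
        sum_cover gen (fun i hi => hle i (hi.trans_le hmM)) hinj]
      · refine sum_congr rfl fun i hi => ?_
        rcases hgi : gen i with _ | a
        · simp [zQ]
        refine sum_congr rfl fun k hk => ?_
        rcases hgk : gen k with _ | b
        · simp [zQ]
        show z a b = _
        rw [hIs i ((mem_range.1 hi).trans_le hmM) k ((mem_range.1 hk).trans_le hmM) a b hgi hgk]
        simp only [z, zQ, g]
        have : Real.sqrt (gauge2 a (T - a) : ℝ) * Real.sqrt (gauge2 b (T - b) : ℝ) ≠ 0 :=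
          mul_ne_zero (hg a) (hg b)
        generalize Real.sqrt (gauge2 a (T - a) : ℝ) * Real.sqrt (gauge2 b (T - b) : ℝ) = G
          at this ⊢
        field_simp
      · intro a ha hne
        by_contra hno
        refine hne (sum_eq_zero fun k _ => ?_)
        rcases gen k with _ | b
        · rfl
        · exact hz0 a b fun q hq hab => hno (hcov q hq a hab.1 ha)
    obtain ⟨i0, hi0, hg0⟩ := hpi
    have hdiag : ∑ i ∈ range m, ∑ k ∈ range m,
        ((if i = k then dterm T (ww i) (gen i) else 0 : ℚ) : ℝ) * I i k =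
        1 / 2 * (∑ a ∈ range (T + 1), ∑ b ∈ range (T + 1), piC Q T a * piC Q T b * J a b) +
          ∑ L ∈ range (T + 1), ((∑ i ∈ range m, if gen i = some L then ww i else 0 : ℚ) : ℝ)
            * J L L := by
      have e : ∀ i ∈ range m, ∑ k ∈ range m,
          ((if i = k then dterm T (ww i) (gen i) else 0 : ℚ) : ℝ) * I i k =
          (if i = i0 then 1 / 2 * (∑ a ∈ range (T + 1), ∑ b ∈ range (T + 1),
            piC Q T a * piC Q T b * J a b) else 0) +
          ∑ L ∈ range (T + 1), if gen i = some L then (ww i : ℝ) * J L L else 0 := by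
        intro i hi
        rw [sum_eq_single i (fun k _ hk => by simp [Ne.symm hk]) (fun h => absurd hi h)]
        rcases hgi : gen i with _ | a
        · rw [if_pos (hinj i (mem_range.1 hi) i0 hi0 (hgi.trans hg0.symm)), hI, hgi]
          have hp : (0 : ℝ) ≤ ((2 * (T - 1).factorial : ℕ) : ℝ) := Nat.cast_nonneg _
          have hr := Real.mul_self_sqrt hp
          have hf : ((T - 1).factorial : ℝ) ≠ 0 := by exact_mod_cast (Nat.factorial_pos _).ne'
          simp only [dterm, reduceCtorEq, if_false, if_true, sum_const_zero, add_zero, mul_sum, gam]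
          refine sum_congr rfl fun a _ => sum_congr rfl fun b _ => ?_
          generalize Real.sqrt ((2 * (T - 1).factorial : ℕ) : ℝ) = r at hr ⊢
          push_cast at hr ⊢
          field_simp
          linear_combination (2 * (piC Q T a * piC Q T b * J a b)) * hr
        · have hne : i ≠ i0 := fun h => by simp [h, hg0] at hgi
          have hiM := (mem_range.1 hi).trans_le hmM
          rw [if_neg hne, hIs i hiM i hiM a a hgi hgi]
          simp only [if_true, dterm, Option.some.injEq, sum_ite_eq, mem_range,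
            Nat.lt_succ_of_le (hle i hiM a hgi), zero_add, g]
          have := Real.mul_self_sqrt (gauge2_pos a (T - a)).le
          have hne' := (gauge2_pos a (T - a)).ne'
          push_cast
          field_simp
          linear_combination ((ww i : ℝ) * J a a) * this
      rw [sum_congr rfl e, sum_add_distrib, sum_ite_eq', if_pos (mem_range.2 hi0), sum_comm (s := range m)]
      refine congrArg _ (sum_congr rfl fun L _ => ?_)
      rw [Rat.cast_sum, sum_mul]
      refine sum_congr rfl fun i _ => ?_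
      split_ifs <;> simp
    simp only [add_mul, sum_add_distrib, hdiag, ← hz, z, sub_mul, sum_sub_distrib, mul_sum,
      ← mul_assoc]
    ring
  -- the lower bound on the squared norms
  have hlow : ∑ i ∈ range m, ∑ k ∈ range m, ((U i k : ℝ) + (U k i : ℝ)
      - ∑ p ∈ range M, (U p i : ℝ) * ∑ q ∈ range M, gramQ Q T (gen p) (gen q) * (U q k : ℝ))
        * I i k ≤ ∑ L ∈ range (T + 1), J L L := by
    let w : ℕ → V := fun L => ∑ p ∈ range M, ∑ k ∈ range m,
      ((gam Q T (gen p) L * U p k : ℝ) : ℂ) • cv k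
    have hnn : ∀ L, 2 * (inner ℂ (x L) (w L)).re - (inner ℂ (w L) (w L)).re ≤ J L L := by
      intro L
      have h0 : 0 ≤ (inner ℂ (x L - w L) (x L - w L)).re := inner_self_nonneg (𝕜 := ℂ)
      have hs : (inner ℂ (w L) (x L)).re = (inner ℂ (x L) (w L)).re :=
        inner_re_symm (𝕜 := ℂ) _ _
      simp only [inner_sub_left, inner_sub_right, Complex.sub_re, hs] at h0
      simp only [J]
      linarith
    have hxw : ∑ L ∈ range (T + 1), (inner ℂ (x L) (w L)).re =
        ∑ i ∈ range m, ∑ k ∈ range m, (U i k : ℝ) * I i k := by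
      have e : ∀ L, (inner ℂ (x L) (w L)).re = ∑ p ∈ range M, ∑ k ∈ range m,
          (U p k : ℝ) * (gam Q T (gen p) L * (inner ℂ (x L) (cv k)).re) := fun L => by
        simp only [w, inner_sum, inner_smul_right, Complex.re_sum, Complex.re_ofReal_mul]
        exact sum_congr rfl fun p _ => sum_congr rfl fun k _ => by ring
      have e2 : ∀ p k, (inner ℂ (cv p) (cv k)).re =
          ∑ L ∈ range (T + 1), gam Q T (gen p) L * (inner ℂ (x L) (cv k)).re := fun p k => by
        conv_lhs => rw [show cv p = ∑ L ∈ range (T + 1), (gam Q T (gen p) L : ℂ) • x L from rfl]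
        simp only [sum_inner, inner_smul_left, Complex.conj_ofReal, Complex.re_sum,
          Complex.re_ofReal_mul]
      simp only [e]
      rw [sum_comm]
      refine (sum_subset (range_mono hmM) ?_).symm.trans (sum_congr rfl fun p _ => ?_)
      · intro p hp hp'
        rw [mem_range] at hp hp'
        obtain ⟨b, hb, hB⟩ := hbad p (not_lt.1 hp') hp
        rw [sum_comm]
        refine sum_eq_zero fun k _ => ?_
        rw [← mul_sum, ← e2, hc p hp b hb, hxb b hB, smul_zero, inner_zero_left, Complex.zero_re,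
          mul_zero]
      · rw [sum_comm]
        refine sum_congr rfl fun k _ => ?_
        rw [← mul_sum, ← e2]
    have hww' : ∑ L ∈ range (T + 1), (inner ℂ (w L) (w L)).re = ∑ i ∈ range m, ∑ k ∈ range m,
        (∑ p ∈ range M, (U p i : ℝ) * ∑ q ∈ range M, gramQ Q T (gen p) (gen q) * (U q k : ℝ))
          * I i k := by
      have e : ∀ L, (inner ℂ (w L) (w L)).re = ∑ i ∈ range m, ∑ k ∈ range m,
          (∑ p ∈ range M, gam Q T (gen p) L * (U p i : ℝ))
            * (∑ q ∈ range M, gam Q T (gen q) L * (U q k : ℝ)) * I i k := fun L => by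
        have : w L = ∑ k ∈ range m,
            ((∑ p ∈ range M, gam Q T (gen p) L * (U p k : ℝ) : ℝ) : ℂ) • cv k := by
          simp only [w, Complex.ofReal_sum, sum_smul]
          exact sum_comm
        rw [this, CAR.re_inner_sum]
      simp only [e]
      rw [sum_comm]
      refine sum_congr rfl fun i _ => ?_
      rw [sum_comm]
      refine sum_congr rfl fun k _ => ?_
      rw [← sum_mul]
      congr 1
      simp only [gramQ, mul_sum, sum_mul]
      rw [sum_comm_cycle, sum_comm_cycle, sum_comm]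
      exact sum_congr rfl fun p _ => sum_congr rfl fun q _ => sum_congr rfl fun L _ => by ring
    have h2 := sum_le_sum fun L (_ : L ∈ range (T + 1)) => hnn L
    rw [sum_sub_distrib, ← mul_sum, hxw, hww'] at h2
    refine le_of_eq_of_le ?_ h2
    have es : ∑ i ∈ range m, ∑ k ∈ range m, (U k i : ℝ) * I i k =
        ∑ i ∈ range m, ∑ k ∈ range m, (U i k : ℝ) * I i k := by
      rw [sum_comm]
      refine sum_congr rfl fun i _ => sum_congr rfl fun k _ => ?_
      rw [show I k i = I i k from inner_re_symm (𝕜 := ℂ) _ _]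
    simp only [sub_mul, add_mul, sum_sub_distrib, sum_add_distrib, es]
    ring
  -- positivity of the reduced form
  have hdom := dom_nonneg (fun i k => nQ c Q T gen M s ww U i k - ∑ p ∈ range m, (R p i : ℝ) * R p k)
    (fun i => (d i : ℝ)) (fun i => by exact_mod_cast hd i) cv fun i hi => (hdd i hi).le
  have hsq : 0 ≤ ∑ i ∈ range m, ∑ k ∈ range m, (∑ p ∈ range m, (R p i : ℝ) * R p k) * I i k := by
    simp only [sum_mul]
    rw [sum_congr rfl fun i (_ : i ∈ range m) => sum_comm, sum_comm]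
    refine sum_nonneg fun p _ => ?_
    rw [← CAR.re_inner_sum]
    exact inner_self_nonneg (𝕜 := ℂ)
  simp only [sub_mul, sum_sub_distrib] at hdom
  have hN : ∑ i ∈ range m, ∑ k ∈ range m, nQ c Q T gen M s ww U i k * I i k =
      (∑ i ∈ range m, ∑ k ∈ range m, zQ c Q T (gen i) (gen k) * I i k) +
      (∑ i ∈ range m, ∑ k ∈ range m,
        ((if i = k then dterm T (ww i) (gen i) else 0 : ℚ) : ℝ) * I i k) +
      (s : ℝ) * ∑ i ∈ range m, ∑ k ∈ range m, ((U i k : ℝ) + (U k i : ℝ)
        - ∑ p ∈ range M, (U p i : ℝ) * ∑ q ∈ range M, gramQ Q T (gen p) (gen q) * (U q k : ℝ))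
          * I i k := by
    rw [mul_sum, ← sum_add_distrib, ← sum_add_distrib]
    refine sum_congr rfl fun i _ => ?_
    rw [mul_sum, ← sum_add_distrib, ← sum_add_distrib]
    refine sum_congr rfl fun k _ => ?_
    rw [nQ]
    ring
  change 0 ≤ ∑ i ∈ range m, ∑ k ∈ range m, nQ c Q T gen M s ww U i k * I i k -
    ∑ i ∈ range m, ∑ k ∈ range m, (∑ p ∈ range m, (R p i : ℝ) * R p k) * I i k at hdom
  have hs' : (0 : ℝ) ≤ (s : ℝ) := by exact_mod_cast hs
  have h4 := mul_le_mul_of_nonneg_left hlow hs'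
  have hsl : ∑ L ∈ range (T + 1), (slackW gen m s ww L : ℝ) * J L L =
      (s : ℝ) * (∑ L ∈ range (T + 1), J L L) +
      ∑ L ∈ range (T + 1), ((∑ i ∈ range m, if gen i = some L then ww i else 0 : ℚ) : ℝ) * J L L := by
    rw [mul_sum, ← sum_add_distrib]
    refine sum_congr rfl fun L _ => ?_
    rw [slackW, Rat.cast_add, add_mul]
  simp only [add_mul, sum_add_distrib] at hquad
  show -∑ L ∈ range (T + 1), (slackW gen m s ww L : ℝ) * J L L ≤
    ∑ a ∈ range (T + 1), ∑ b ∈ range (T + 1), c.quad Q T a b * J a b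
  linarith

/-- A weighted diagonally dominant remainder of the reduced form gives a slack. -/
theorem isSlack_of_gen (c : Data) (hlegal : ∀ q ∈ c.sqs, q.Legal) {T : ℕ} (hT : 1 ≤ T)
    (gen : ℕ → Option ℕ) {m M : ℕ} (hmM : m ≤ M)
    (hle : ∀ i < M, ∀ a, gen i = some a → a ≤ T)
    (hbad : ∀ i, m ≤ i → i < M → ∃ b, gen i = some b ∧ Bad b)
    (hinj : ∀ i < m, ∀ k < m, gen i = gen k → i = k)
    (hpi : ∃ i, i < m ∧ gen i = none)
    (hcov : ∀ q ∈ c.sqs, ∀ a ∈ q.Ls, a ≤ T → ∃ i, i < m ∧ gen i = some a)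
    (s : ℚ) (hs : 0 ≤ s) (ww : ℕ → ℚ) (hww : ∀ i, 0 ≤ ww i)
    (U R : ℕ → ℕ → ℚ) (d : ℕ → ℚ) (hd : ∀ i, 0 < d i)
    (hdd : ∀ i < m,
      ∑ k ∈ (range m).erase i,
          (|nmat c T gen M s ww U i k - ∑ p ∈ range m, R p i * R p k|
            + |nmat c T gen M s ww U k i - ∑ p ∈ range m, R p k * R p i|) / 2 * d k <
        (nmat c T gen M s ww U i i - ∑ p ∈ range m, R p i * R p i) * d i) :
    c.IsSlack T (slackW gen m s ww) := by
  refine ⟨fun L => add_nonneg hs (sum_nonneg fun i _ => ?_), ?_⟩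
  · split_ifs
    · exact hww i
    · exact le_rfl
  have hev : ∀ i ∈ range m, ∀ᶠ Q in atTop,
      ∑ k ∈ (range m).erase i,
          (|nQ c Q T gen M s ww U i k - ∑ p ∈ range m, (R p i : ℝ) * R p k|
            + |nQ c Q T gen M s ww U k i - ∑ p ∈ range m, (R p k : ℝ) * R p i|) / 2 * d k <
        (nQ c Q T gen M s ww U i i - ∑ p ∈ range m, (R p i : ℝ) * R p i) * d i := by
    intro i hi
    have hiM := (mem_range.1 hi).trans_le hmM
    refine Tendsto.eventually_lt ?_ ?_ (Rat.cast_lt (K := ℝ) |>.2 (hdd i (mem_range.1 hi)))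
    · push_cast
      refine tendsto_finsetSum _ fun k hk => ?_
      have hkM := (mem_range.1 (mem_of_mem_erase hk)).trans_le hmM
      exact (((((nQ_tendsto c hlegal hT gen hle s ww U hiM hkM).sub tendsto_const_nhds).abs).add
        (((nQ_tendsto c hlegal hT gen hle s ww U hkM hiM).sub tendsto_const_nhds).abs)).div_const
          _).mul_const _
    · push_cast
      exact ((nQ_tendsto c hlegal hT gen hle s ww U hiM hiM).sub tendsto_const_nhds).mul_const _
  obtain ⟨Q0, hQ0⟩ := eventually_atTop.1 ((range m).eventually_all.2 hev)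
  refine ⟨max Q0 5, fun Q hQ V _ _ A ψ => ?_⟩
  have hQ0' := hQ0 Q (le_trans (le_max_left _ _) hQ)
  have hQ5 : 5 ≤ Q := le_trans (le_max_right _ _) hQ
  simp only [CAR.ov, mul_sum]
  rw [sum_comm, sum_congr rfl fun a (_ : a ∈ range (T + 1)) => sum_comm, sum_comm (s := range (T + 1)),
    ← sum_neg_distrib]
  refine sum_le_sum fun u _ => ?_
  refine point_nonneg c gen hmM hle hbad hinj hpi hcov s hs ww U R d hd
    (fun i hi => hQ0' i (mem_range.2 hi)) (fun L => A.Phi2 L (T - L) u ψ)
    (fun a ha => A.Phi2_exch (by omega) ha u ψ) fun b hb => ?_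
  simp [CAR.Phi2, A.Phi1_bad hQ5 hb]

end P359.Cert8
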