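import Vale.Agent.P359.Cert8.Fast

/-!
# P359: the combined polynomials of the squares
-/

namespace P359.Cert8

open Finset P359.Asm

/-- The combined coefficients agree with the groups, for one channel `a`. -/
def rowOk (a : ℕ) : Bool :=
  chans.all fun b =>
    decide (((ctab.getD (chans.idxOf a) []).getD (chans.idxOf b) []).length = 27) &&
      (List.range 27).all fun t =>
        decide (((((ctab.getD (chans.idxOf a) []).getD (chans.idxOf b) []).getD t 0 : ℤ) : ℚ) =
          ((2 ^ 180 * 3 ^ 14 : ℕ) : ℚ)
            * ((grps.zip ztab).map fun gz => gcoef gz.1 gz.2 a b t).sum)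

theorem rowOk2 : rowOk 2 = true := by decide +kernel

theorem rowOk4 : rowOk 4 = true := by decide +kernel

theorem rowOk5 : rowOk 5 = true := by decide +kernel

theorem rowOk6 : rowOk 6 = true := by decide +kernel

theorem rowOk7 : rowOk 7 = true := by decide +kernel

theorem rowOk8 : rowOk 8 = true := by decide +kernel

theorem rowOk9 : rowOk 9 = true := by decide +kernel

theorem rowOk10 : rowOk 10 = true := by decide +kernel

theorem rowOk11 : rowOk 11 = true := by decide +kernel

theorem rowOk12 : rowOk 12 = true := by decide +kernel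

theorem rowOk_chans : ∀ a ∈ chans, rowOk a = true := by
  intro a ha
  simp only [chans, List.mem_cons, List.not_mem_nil, or_false] at ha
  rcases ha with h | h | h | h | h | h | h | h | h | h <;> subst h <;>
    first
      | exact rowOk2
      | exact rowOk4
      | exact rowOk5
      | exact rowOk6
      | exact rowOk7
      | exact rowOk8
      | exact rowOk9
      | exact rowOk10
      | exact rowOk11
      | exact rowOk12

theorem cf_zero {n n' t : ℕ} (h : n < t) : cf n n' t = 0 := if_neg (by omega)

/-- The summand of one square. -/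
def sterm (T a b : ℕ) (s : Sq) : ℚ :=
  if a ∈ s.Ls ∧ b ∈ s.Ls then
    s.r a * s.r b * (3 / 2 : ℚ) ^ ((a : ℤ) - s.n a) * R3 (s.n a) (T - a) (s.n b) (T - b)
  else 0

theorem sum_mul_const {α : Type*} (l : List α) (f : α → ℚ) (c : ℚ) :
    (l.map fun x => f x * c).sum = (l.map f).sum * c := by
  induction l with
  | nil => simp
  | cons x l ih => simp [ih, add_mul]

theorem sum_flatMap_rows (f : Sq → ℚ) (l : List Grp) :
    ((l.flatMap fun g => g.2.2.map (mkSq g)).map f).sum =
      (l.map fun g => (g.2.2.map fun row => f (mkSq g row)).sum).sum := by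
  induction l with
  | nil => simp
  | cons g l ih =>
    simp only [List.flatMap_cons, List.map_append, List.sum_append, List.map_cons, List.sum_cons,
      ih, List.map_map, Function.comp_def]

theorem group_eq {g : Grp} {z : List (List ℚ)} (hgz : (g, z) ∈ grps.zip ztab) {T a b : ℕ}
    (haT : a ≤ T) (hbT : b ≤ T) :
    (g.2.2.map fun row => sterm T a b (mkSq g row)).sum =
      pre (T - b) * ∑ t ∈ range 27,
        gcoef g z a b t * ((8 ^ t * (T - b).descFactorial t : ℕ) : ℚ) := by
  by_cases hm : a ∈ g.2.1 ∧ b ∈ g.2.1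
  · have hz := ztab_ok
    rw [ztabOk, List.all_eq_true] at hz
    have ha := hz _ hgz
    rw [List.all_eq_true] at ha
    have hb := ha b hm.2
    have ha := ha a hm.1
    simp only [Bool.and_eq_true, decide_eq_true_eq, List.all_eq_true, zOk] at ha hb
    obtain ⟨⟨hja, hna⟩, hza⟩ := ha
    obtain ⟨⟨hjb, -⟩, -⟩ := hb
    have hz := hza b hm.2
    set n := a + g.1.2 - g.1.1 with hn
    set n' := b + g.1.2 - g.1.1 with hn'
    have hj : (3 / 2 : ℚ) ^ ((a : ℤ) - n) =
        (((3 ^ g.1.1 * 2 ^ g.1.2 : ℕ)) : ℚ) / (((2 ^ g.1.1 * 3 ^ g.1.2 : ℕ)) : ℚ) := by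
      rw [show ((a : ℤ) - n) = (g.1.1 : ℤ) - g.1.2 by omega,
        zpow_sub₀ (by norm_num), zpow_natCast, zpow_natCast, div_pow, div_pow]
      push_cast
      field_simp
    have hext : ∀ f : ℕ → ℚ, ∑ t ∈ range (n + 1), (cf n n' t : ℚ) * f t =
        ∑ t ∈ range 27, (cf n n' t : ℚ) * f t := fun f =>
      sum_subset (range_subset_range.2 (by omega)) fun t _ ht => by
        simp [cf_zero (show n < t by simpa using ht)]
    have hR := R3_eq (show n + (T - a) = n' + (T - b) by omega)
    rw [hext] at hR
    simp only [sterm, mkSq, List.mem_toFinset, hm, and_self, if_true, ← hn, ← hn', gcoef, hj, hR,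
      sum_mul_const]
    rw [hz, Nat.cast_pow, neg_one_pow_eq_ite]
    simp only [Nat.even_iff, mul_sum]
    refine sum_congr rfl fun t _ => ?_
    push_cast
    ring
  · simp [sterm, mkSq, gcoef, hm]

theorem zip_fst_sum (F : Grp → ℚ) :
    (grps.map F).sum = ((grps.zip ztab).map fun gz => F gz.1).sum := by
  have e : (grps.zip ztab).map Prod.fst = grps :=
    List.map_fst_zip ztab_length.le
  conv_lhs => rw [← e]
  rw [List.map_map]
  rfl

theorem sum_list_comm {α : Type*} (l : List α) (f : α → ℕ → ℚ) :
    (l.map fun x => ∑ t ∈ range 27, f x t).sum = ∑ t ∈ range 27, (l.map fun x => f x t).sum := by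
  induction l with
  | nil => simp
  | cons x l ih => simp [ih, sum_add_distrib]

/-- The fast evaluation of the squares. -/
theorem ztermc_eq {T : ℕ} {p q : Option ℕ} (hp : ∀ a, p = some a → a ∈ chans ∧ a ≤ T)
    (hq : ∀ b, q = some b → b ∈ chans ∧ b ≤ T) : ztermc T p q = zterm cert T p q := by
  match p, q with
  | some a, some b =>
    obtain ⟨ha, haT⟩ := hp a rfl
    obtain ⟨hb, hbT⟩ := hq b rfl
    have hr := rowOk_chans a ha
    rw [rowOk, List.all_eq_true] at hr
    have hr := hr b hb
    simp only [Bool.and_eq_true, decide_eq_true_eq, List.all_eq_true, List.mem_range] at hr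
    obtain ⟨hlen, hco⟩ := hr
    rw [zterm, show cert.sqs = sqsAll from rfl, sqsAll, ztermc]
    rw [show (fun s : Sq => if a ∈ s.Ls ∧ b ∈ s.Ls then
        s.r a * s.r b * (3 / 2 : ℚ) ^ ((a : ℤ) - s.n a) * R3 (s.n a) (T - a) (s.n b) (T - b)
      else 0) = sterm T a b from rfl, sum_flatMap_rows, zip_fst_sum,
      List.map_congr_left (g := fun gz => ∑ t ∈ range 27, pre (T - b) *
        (gcoef gz.1 gz.2 a b t * ((8 ^ t * (T - b).descFactorial t : ℕ) : ℚ)))
        (fun gz hgz => by rw [group_eq (z := gz.2) hgz haT hbT, mul_sum]), sum_list_comm]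
    rw [hor_eq, hlen]
    push_cast
    rw [mul_sum, sum_div]
    refine sum_congr rfl fun t ht => ?_
    rw [hco t (mem_range.1 ht)]
    rw [List.sum_map_mul_left, sum_mul_const]
    push_cast
    field_simp
  | some a, none => rfl
  | none, some b => rfl
  | none, none => rfl

end P359.Cert8
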