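import Vale.Agent.P359.Cert8.Poly

/-!
# P359: a witness in one weight gives a slack
-/

namespace P359.Cert8

open Finset P359.Asm

/-- The generator with index `i`. -/
def Wit.gen (w : Wit) (i : ℕ) : Option ℕ := w.al.getD i none

/-- The weight with index `i`. -/
def Wit.wt (w : Wit) (i : ℕ) : ℚ := w.ww.getD i 0

/-- The slack of each channel. -/
def Wit.slack (w : Wit) (L : ℕ) : ℚ := slackW w.gen w.m w.s w.wt L

/-- The check of the cost of the slack. -/
def Wit.chkCost (w : Wit) (T : ℕ) (c : ℚ) : Bool :=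
  decide ((lsum (T + 1) fun L => if L = 0 ∨ L = 1 ∨ L = 3 then 0 else
    (w.s + lsum w.m fun i => if w.gen i = some L then w.wt i else 0)
      * (2 * ((L : ℚ) + 1) * ((T - L : ℕ) + 1))) ≤ c)

/-- The check of the indices and signs. -/
def Wit.chkIdx (w : Wit) (T : ℕ) : Bool :=
  decide (1 ≤ T ∧ w.m ≤ w.al.length ∧ 0 ≤ w.s) &&
  w.ww.all (fun x => decide (0 ≤ x)) &&
  w.d.all (fun x => decide (0 < x)) &&
  (List.range w.m).all (fun i => match w.gen i with
    | some a => decide (a ∈ chans ∧ a ≤ T)
    | none => true) &&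
  (List.range w.al.length).all (fun i => decide (i < w.m) || (match w.gen i with
    | some b => decide ((b = 0 ∨ b = 1 ∨ b = 3) ∧ b ≤ T)
    | none => false)) &&
  (List.range w.m).all (fun i => (List.range w.m).all fun k =>
    decide (w.gen i = w.gen k → i = k)) &&
  (List.range w.m).any (fun i => decide (w.gen i = none)) &&
  chans.all (fun a => decide (T < a) || (List.range w.m).any fun i => decide (w.gen i = some a))

/-- All groups use the channels `chans`. -/
theorem grps_chans : (grps.all fun g => g.2.1.all fun a => decide (a ∈ chans)) = true := by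
  decide +kernel

theorem sq_chans {q : Sq} (hq : q ∈ cert.sqs) {a : ℕ} (ha : a ∈ q.Ls) : a ∈ chans := by
  simp only [show cert.sqs = sqsAll from rfl, sqsAll, List.mem_flatMap, List.mem_map] at hq
  obtain ⟨g, hg, row, -, rfl⟩ := hq
  have h := grps_chans
  simp only [List.all_eq_true, decide_eq_true_eq] at h
  exact h g hg a (by simpa [mkSq] using ha)

/-- Impurities only occur at shift zero, and no shift passes below a channel. -/
theorem grps_legal : (grps.all fun g => g.2.1.all (fun a => decide (g.1.1 ≤ a + g.1.2)) &&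
    g.2.2.all fun row => decide (row.1 = 0) || decide (g.1.1 = 0 ∧ g.1.2 = 0)) = true := by
  decide +kernel

theorem cert_legal : ∀ q ∈ cert.sqs, q.Legal := by
  intro q hq
  simp only [show cert.sqs = sqsAll from rfl, sqsAll, List.mem_flatMap, List.mem_map] at hq
  obtain ⟨g, hg, row, hrow, rfl⟩ := hq
  have h := grps_legal
  simp only [List.all_eq_true, Bool.and_eq_true, Bool.or_eq_true, decide_eq_true_eq] at h
  obtain ⟨h1, h2⟩ := h g hg
  refine ⟨fun L hL L' hL' => ?_, fun hv L hL => ?_⟩
  · have := h1 L (by simpa [mkSq] using hL)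
    have := h1 L' (by simpa [mkSq] using hL')
    simp only [mkSq]
    omega
  · obtain ⟨e1, e2⟩ := (h2 row hrow).resolve_left hv
    simp only [mkSq, e1, e2]
    omega

theorem lsum_eq (n : ℕ) (f : ℕ → ℚ) : lsum n f = ∑ i ∈ range n, f i := by
  induction n with
  | zero => simp [lsum]
  | succ n ih =>
    rw [sum_range_succ, ← ih]
    simp [lsum, List.range_succ]

theorem dtermc_eq (T : ℕ) (x : ℚ) (p : Option ℕ) : dtermc T x p = dterm T x p := by
  match p with
  | some a => rfl
  | none => rfl

theorem cost_of_chk (w : Wit) {T : ℕ} {c : ℚ} (h : w.chkCost T c = true) :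
    ∑ L ∈ (range (T + 1)).filter (fun L => ¬ Bad L),
      w.slack L * (2 * ((L : ℚ) + 1) * ((T - L : ℕ) + 1)) ≤ c := by
  simp only [Wit.chkCost, lsum_eq, decide_eq_true_eq] at h
  refine le_of_eq_of_le ?_ h
  rw [sum_filter]
  refine sum_congr rfl fun L _ => ?_
  by_cases hb : L = 0 ∨ L = 1 ∨ L = 3
  · rw [if_pos hb, if_neg (not_not_intro (show Bad L from hb))]
  · rw [if_neg hb, if_pos (show ¬ Bad L from hb)]
    rfl

theorem isSlack_of_wit (w : Wit) {T : ℕ} (hidx : w.chkIdx T = true) (htab : w.chkTab T = true)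
    (hdom : w.chkDom = true) : cert.IsSlack T w.slack := by
  simp only [Wit.chkIdx, Bool.and_eq_true, List.all_eq_true, List.any_eq_true, List.mem_range,
    decide_eq_true_eq, Bool.or_eq_true] at hidx
  obtain ⟨⟨⟨⟨⟨⟨⟨⟨hT, hm, hs⟩, hww⟩, hd⟩, hgood⟩, hbad⟩, hinj⟩, hpi⟩, hcov⟩ := hidx
  have hgood' : ∀ i < w.m, ∀ a, w.gen i = some a → a ∈ chans ∧ a ≤ T := by
    intro i hi a ha
    have := hgood i hi
    rw [ha] at this
    simpa using this
  have hbad' : ∀ i, w.m ≤ i → i < w.al.length →
      ∃ b, w.gen i = some b ∧ (b = 0 ∨ b = 1 ∨ b = 3) ∧ b ≤ T := by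
    intro i hi hi'
    have := (hbad i hi').resolve_left (by omega)
    rcases hb : w.gen i with _ | b <;> rw [hb] at this
    · simp at this
    · exact ⟨b, rfl, by simpa using this⟩
  have hle : ∀ i < w.al.length, ∀ a, w.gen i = some a → a ≤ T := by
    intro i hi a ha
    rcases lt_or_ge i w.m with h | h
    · exact (hgood' i h a ha).2
    · obtain ⟨b, hb, -, hbT⟩ := hbad' i h hi
      rw [ha] at hb
      obtain rfl := Option.some.inj hb
      exact hbT
  have hget : ∀ (l : List ℚ) (P : ℚ → Prop) (d : ℚ) (i : ℕ),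
      (∀ x ∈ l, P x) → P d → P (l.getD i d) := by
    intro l P d i hl h0
    rcases lt_or_ge i l.length with h | h
    · rw [List.getD_eq_getElem _ _ h]
      exact hl _ (List.getElem_mem h)
    · rw [List.getD_eq_default _ _ h]
      exact h0
  simp only [Wit.chkTab, Bool.and_eq_true, List.all_eq_true, List.mem_range, decide_eq_true_eq,
    lsum_eq] at htab
  obtain ⟨⟨hG, hW⟩, hN⟩ := htab
  have hNeq : ∀ i < w.m, ∀ k < w.m,
      nmat cert T w.gen w.al.length w.s w.wt (ent w.U) i k = ent w.N i k := by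
    intro i hi k hk
    rw [hN i hi k hk, dtermc_eq,
      show ztermc T (w.al.getD i none) (w.al.getD k none) = zterm cert T (w.gen i) (w.gen k)
        from ztermc_eq (hgood' i hi) (hgood' k hk), nmat]
    refine congrArg₂ (· + ·) rfl (congrArg (w.s * ·) (congrArg₂ (· - ·) rfl ?_))
    refine sum_congr rfl fun p hp => ?_
    rw [mem_range] at hp
    rw [hW p hp k hk]
    refine congrArg (ent w.U p i * ·) (sum_congr rfl fun q hq => ?_)
    rw [mem_range] at hq
    rw [hG p hp q hq]
    exact congrArg (· * ent w.U q k) (gramc_eq (hle p hp) (hle q hq)).symm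
  refine isSlack_of_gen cert cert_legal hT w.gen hm hle
    (fun i h h' => (hbad' i h h').imp fun b hb => ⟨hb.1, hb.2.1⟩) hinj hpi ?_ w.s hs w.wt
    (fun i => hget w.ww (0 ≤ ·) 0 i hww le_rfl) (ent w.U) (ent w.R) (fun i => w.d.getD i 1)
    (fun i => hget w.d (0 < ·) 1 i hd one_pos) ?_
  · intro q hq a ha haT
    exact (hcov a (sq_chans hq ha)).resolve_left (by omega)
  · intro i hi
    simp only [Wit.chkDom, List.all_eq_true, List.mem_range, decide_eq_true_eq, lsum_eq,
      Wit.rest] at hdom
    have h := hdom i hi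
    rw [← sum_erase (range w.m) (a := i) (by simp)] at h
    rw [hNeq i hi i hi]
    refine lt_of_eq_of_lt (sum_congr rfl fun k hk => ?_) h
    rw [mem_erase, mem_range] at hk
    rw [if_neg hk.1, hNeq i hi k hk.2, hNeq k hk.2 i hi]

end P359.Cert8
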